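import Vale.Agent.P322.H880.Chain
import Vale.Agent.P322.H880.Deficit

namespace Vale.Agent.Results.P322.BiasDeficit

open Vale.Agent.P322

/-- Stronger forms of the Courtade-Kumar inequality: (1) the inequality; (2) the inequality with a
deficit quadratic in the bias; (3) equality for a noise `ε < 1/2` forces `f` to be balanced;
(4) any binary `U` and any `V` in a Markov chain `U - X - Y - V`, with unequal noise. -/
theorem result :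
    (∀ (n : ℕ) (f : (Fin n → ℤˣ) → ℤˣ) (ε : ℝ), 0 ≤ ε → ε ≤ 1 / 2 →
      mutualInfo (outLaw n ε f) ≤ 1 - h2 ε) ∧
    (∀ (n : ℕ) (f : (Fin n → ℤˣ) → ℤˣ) (ε : ℝ), 0 ≤ ε → ε ≤ 1 / 2 →
      mutualInfo (outLaw n ε f) ≤ 1 - h2 ε - 1 / 4 * (1 - 2 * ε) ^ 2 * bias n f ^ 2) ∧
    (∀ (n : ℕ) (f : (Fin n → ℤˣ) → ℤˣ) (ε : ℝ), 0 ≤ ε → ε < 1 / 2 →
      mutualInfo (outLaw n ε f) = 1 - h2 ε → bias n f = 0) ∧
    (∀ (n : ℕ) (β : Type) [Fintype β] (W : (Fin n → ℤˣ) → ℤˣ → ℝ) (K : (Fin n → ℤˣ) → β → ℝ)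
      (ε : ℝ) (δ : Fin n → ℝ), IsKernel W → IsKernel K → 0 ≤ ε → ε ≤ 1 / 2 →
      (∀ i, ε ≤ δ i ∧ δ i ≤ 1 - ε) → mutualInfo (chainLaw n δ W K) ≤ 1 - h2 ε) := by
  refine ⟨courtade_kumar, H880.deficit, fun n f ε h0 h1 h => ?_,
    fun n β _ W K ε δ hW hK h0 h1 hδ => H880.chain_le hW hK h0 h1 hδ⟩
  have h2 := H880.deficit n f ε h0 h1.le
  rw [h] at h2
  have h3 : 0 < 1 / 4 * (1 - 2 * ε) ^ 2 := by
    have : 0 < 1 - 2 * ε := by linarith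
    positivity
  have h4 : bias n f ^ 2 ≤ 0 := by
    by_contra hc
    have := mul_pos h3 (not_le.1 hc)
    linarith
  exact pow_eq_zero_iff (two_ne_zero) |>.1 (le_antisymm h4 (sq_nonneg _))

end Vale.Agent.Results.P322.BiasDeficit
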