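import Vale.Agent.P322.H903.FKN

namespace Vale.Agent.Results.P322.DictatorStability

open Vale.Agent.P322

/-- The Courtade-Kumar inequality (1), with its equality case (2): for `0 < ε < 1/2` the only
optimal functions are the signed coordinates, and with a dimension-free stability (3): for
`0 < ε < 1/2` the deficit is at least `c(ε)` times the distance to a signed coordinate. -/
theorem result :
    (∀ (n : ℕ) (f : (Fin n → ℤˣ) → ℤˣ) (ε : ℝ), 0 ≤ ε → ε ≤ 1 / 2 →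
      mutualInfo (outLaw n ε f) ≤ 1 - h2 ε) ∧
    (∀ (n : ℕ) (f : (Fin n → ℤˣ) → ℤˣ) (ε : ℝ), 0 < ε → ε < 1 / 2 →
      (mutualInfo (outLaw n ε f) = 1 - h2 ε ↔ ∃ (i : Fin n) (s : ℤˣ), ∀ x, f x = s * x i)) ∧
    (∀ ε : ℝ, 0 < ε → ε < 1 / 2 → ∃ c : ℝ, 0 < c ∧ ∀ n : ℕ, 0 < n →
      ∀ f : (Fin n → ℤˣ) → ℤˣ, ∃ (i : Fin n) (s : ℤˣ),
        mutualInfo (outLaw n ε f) ≤ 1 - h2 ε
          - c * (((Finset.univ.filter fun x : Fin n → ℤˣ => f x ≠ s * x i).card : ℝ) / 2 ^ n)) :=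
  ⟨courtade_kumar, fun n f _ h0 h1 => H903.equality_iff h0 h1 n f,
    fun _ h0 h1 => H903.stability h0 h1⟩

end Vale.Agent.Results.P322.DictatorStability
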